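import Vale.Agent.P269.G1.BSpec
import Vale.Agent.P269.H597.Final

/-!
# [DB6] symmetry of the Virasoro coefficients on a family
-/

namespace Vale.Agent.P269.G1.H521

open Vale.Agent.P269.CI Vale.Agent.P269.H597 Vale.Agent.P269.G1

variable {X : CompleteIntersection} {n : ℕ} (E : Fam X n) {F : ℕ → ℕ → List (Ins X) → ℂ}

/-- **[DB6]** -/
theorem symF_vir (hF : IsGW X F) (k : ℕ) :
    SymF E (fun d L => virasoro X F (k + 1) 1 d L) := by
  intro d L M h
  have hs : ∀ (A B : List (Fin n)) (i j : Fin n),
      virasoro X F (k + 1) 1 d ((A ++ i :: j :: B).map E.ins) =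
        virasoro X F (k + 1) 1 d ((A ++ j :: i :: B).map E.ins) := by
    intro A B i j
    have h1 := Coh.SymF_vir (stringG hF).symm k 1 d (A.map E.ins) (B.map E.ins)
      (E.ins i) (E.ins j)
    rw [virasoro_succ, virasoro_succ]
    simp only [List.map_append, List.map_cons]
    rw [h1]
    have h2 : (coh X).ip (E.ins i) = false := rfl
    rw [h2]
    simp
  clear hF
  have key : ∀ (L M : List (Fin n)), L.Perm M → ∀ A : List (Fin n),
      virasoro X F (k + 1) 1 d ((A ++ L).map E.ins) =
        virasoro X F (k + 1) 1 d ((A ++ M).map E.ins) := by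
    intro L M h
    induction h with
    | nil => intro A; rfl
    | cons x _ ih =>
      intro A
      have := ih (A ++ [x])
      simpa only [List.append_assoc, List.cons_append, List.nil_append] using this
    | swap x y l => intro A; exact hs A l y x
    | trans _ _ ih1 ih2 => intro A; exact (ih1 A).trans (ih2 A)
  exact key L M h []

end Vale.Agent.P269.G1.H521
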